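import Vale.Agent.P219.CH.Full.Limit.Pre
import Vale.Agent.P219.CH.Core.Field.Point

/-!
P219 Limit 5: the limit measure is not zero.
-/

namespace Vale.Agent.P219.CH.Full.Limit

open MeasureTheory Filter Topology Set Metric
open scoped ContDiff

noncomputable section

set_option maxSynthPendingDepth 3

variable {n : ℕ} {G : Coeff n}

/-- A bounded function with zero weak derivative is almost everywhere constant. -/
theorem ae_eq_const_of_weak {g : E n → ℝ} (hg : LocallyIntegrable g)
    (h : ∀ φ : E n → ℝ, ContDiff ℝ 1 φ → HasCompactSupport φ → ∀ w,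
      ∫ y, g y * fderiv ℝ φ y w = 0) :
    ∃ c, ∀ᵐ y, g y = c := by
  set b : ℕ → ContDiffBump (0 : E n) := fun j =>
    ⟨1 / (j + 1), 2 / (j + 1), by positivity, by
      gcongr
      norm_num⟩
  have hb : Tendsto (fun j => (b j).rOut) atTop (𝓝 0) := by
    have := (tendsto_one_div_add_atTop_nhds_zero_nat (𝕜 := ℝ)).const_mul 2
    simp only [mul_zero, mul_one_div] at this
    exact this
  have hconst : ∀ j x x', (∫ y, g y * (b j).normed volume (x - y)) =
      ∫ y, g y * (b j).normed volume (x' - y) := by
    intro j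
    set φ := (b j).normed (volume : Measure (E n))
    have hφ : ContDiff ℝ 1 φ := (b j).contDiff_normed
    have hφs : HasCompactSupport φ := (b j).hasCompactSupport_normed
    have hd : ∀ x, HasFDerivAt (fun x => ∫ y, g y * φ (x - y)) (0 : E n →L[ℝ] ℝ) x := by
      intro x
      have h1 := hφs.hasFDerivAt_convolution_right (ContinuousLinearMap.mul ℝ ℝ) hg hφ x
      refine h1.congr_fderiv (ContinuousLinearMap.ext fun w => ?_)
      rw [convolution_precompR_apply (L := ContinuousLinearMap.mul ℝ ℝ) hg (hφs.fderiv ℝ)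
        (hφ.continuous_fderiv one_ne_zero), zero_apply]
      have h2 := h (fun y => φ (x - y)) (hφ.comp (contDiff_const.sub contDiff_id))
        (hφs.comp_homeomorph (Homeomorph.subLeft x)) w
      have e : ∀ y, fderiv ℝ (fun y => φ (x - y)) y w = -fderiv ℝ φ (x - y) w := fun y => by
        show fderiv ℝ (φ ∘ fun y => x - y) y w = _
        rw [((hφ.differentiable one_ne_zero (x - y)).hasFDerivAt.comp y
          ((hasFDerivAt_id y).const_sub x)).fderiv]
        simp
      simp only [e, mul_neg, integral_neg, neg_eq_zero] at h2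
      exact h2
    exact fun x x' => is_const_of_fderiv_eq_zero (fun x => (hd x).differentiableAt)
      (fun x => (hd x).fderiv) x x'
  have hlim : ∀ᵐ x, Tendsto (fun j => ∫ y, g y * (b j).normed volume (x - y)) atTop (𝓝 (g x)) := by
    filter_upwards [ContDiffBump.ae_convolution_tendsto_right_of_locallyIntegrable
      (φ := b) (K := 2) hb (Eventually.of_forall fun j => le_of_eq (by simp [b]; ring)) hg] with x hx
    refine hx.congr fun j => ?_
    rw [convolution_eq_swap]
    simp [mul_comm]
  obtain ⟨x₀, hx₀⟩ := hlim.exists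
  refine ⟨g x₀, ?_⟩
  filter_upwards [hlim] with x hx
  exact tendsto_nhds_unique hx (hx₀.congr fun j => hconst j x₀ x)

/-- The profile `(1 + s²)^(-1/4)`. -/
def prof (s : ℝ) : ℝ := (1 + s ^ 2) ^ (-(1 / 4 : ℝ))

theorem contDiff_prof : ContDiff ℝ 1 prof :=
  (contDiff_const.add (contDiff_id.pow 2)).rpow_const_of_ne fun s => by
    simp only [id]; positivity

theorem prof_pos (s : ℝ) : 0 < prof s := Real.rpow_pos_of_pos (by positivity) _

theorem prof_deriv (s : ℝ) : 0 ≤ prof s + 2 * s * deriv prof s := by
  have hp : (0 : ℝ) < 1 + s ^ 2 := by positivity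
  have hd : HasDerivAt prof (2 * s * (-(1 / 4)) * (1 + s ^ 2) ^ (-(1 / 4 : ℝ) - 1)) s := by
    have h0 : HasDerivAt (fun s : ℝ => 1 + s ^ 2) (2 * s) s := by
      simpa using (hasDerivAt_pow 2 s).const_add 1
    exact h0.rpow_const (Or.inl hp.ne')
  rw [hd.deriv, Real.rpow_sub hp, Real.rpow_one]
  have e : prof s = (1 + s ^ 2) ^ (-(1 / 4 : ℝ)) := rfl
  rw [e]
  have hq : (0 : ℝ) < (1 + s ^ 2) ^ (-(1 / 4 : ℝ)) := Real.rpow_pos_of_pos hp _
  generalize (1 + s ^ 2 : ℝ) ^ (-(1 / 4 : ℝ)) = q at hq
  field_simp
  nlinarith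

theorem sq_prof_mul_le (s : ℝ) : prof s ^ 2 * s ≤ 1 := by
  have h : prof s ^ 2 = (Real.sqrt (1 + s ^ 2))⁻¹ := by
    rw [prof, Real.sqrt_eq_rpow, ← Real.rpow_neg (by positivity), ← Real.rpow_natCast,
      ← Real.rpow_mul (by positivity)]
    norm_num
  rw [h, inv_mul_le_one₀ (Real.sqrt_pos.2 (by positivity))]
  exact Real.le_sqrt_of_sq_le (by linarith)

theorem le_prof {s R : ℝ} (hs : 0 ≤ s) (hsR : s ≤ R ^ 2) (hR : 0 ≤ R) : 1 / (1 + R) ≤ prof s := by
  have h1 : 1 + s ^ 2 ≤ (1 + R) ^ 4 := by
    nlinarith [pow_le_pow_left₀ hs hsR 2, sq_nonneg R, mul_nonneg hR (sq_nonneg R)]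
  calc 1 / (1 + R) = ((1 + R) ^ 4) ^ (-(1 / 4 : ℝ)) := by
        rw [← Real.rpow_natCast, ← Real.rpow_mul (by linarith)]
        norm_num [Real.rpow_neg_one]
    _ ≤ _ := Real.rpow_le_rpow_of_nonpos (by positivity) h1 (by norm_num)

/-- The divergence of the radial field of the profile. -/
theorem le_divg_radial (hG : IsMetric G) (Γ : Geo G) (o y : E n) :
    ((n : ℝ) - 1) * prof (Core.Field.rho Γ o y) ≤ divg G (Core.Field.radial Γ prof o) y := by
  set ρ := Core.Field.rho Γ o y
  have hn : (n : ℝ) ≤ divg G (Γ.V o) y := by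
    have h := Core.Field.trace_nonneg (G y) (hG.symm y) (hG.pos y)
      (Core.Field.covdL G (Γ.V o) y - LinearMap.id) fun w => by
        simpa [Core.Field.covdL_apply] using (sub_nonneg.2 (Γ.hess o y w) :
        0 ≤ G y (covd G (Γ.V o) y w) w - G y w w)
    rw [map_sub, LinearMap.trace_id, finrank_euclideanSpace_fin,
      ← Core.Field.divg_eq_trace] at h
    exact sub_nonneg.1 h
  have hd : divg G (Core.Field.radial Γ prof o) y = prof ρ * divg G (Γ.V o) y + 2 * deriv prof ρ * ρ := by
    simp only [divg, Core.Field.covd_radial Γ hG contDiff_prof, PiLp.add_apply,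
      PiLp.smul_apply, smul_eq_mul, Finset.sum_add_distrib, ← Finset.mul_sum]
    congr 1
    rw [show 2 * deriv prof ρ * ρ = 2 * deriv prof ρ * G y (Γ.V o y) (Γ.V o y) by
      rw [Core.Field.sq_V Γ hG], ← Core.Field.sum_mul_coord (G y (Γ.V o y)), Finset.mul_sum]
    exact Finset.sum_congr rfl fun i _ => by ring
  rw [hd]
  nlinarith [mul_le_mul_of_nonneg_left hn (prof_pos ρ).le, prof_deriv ρ]

theorem contDiff_radial_right (hG : IsMetric G) (Γ : Geo G) {φ : ℝ → ℝ} (hφ : ContDiff ℝ 1 φ)
    (o : E n) : ContDiff ℝ 1 (Core.Field.radial Γ φ o) := by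
  have hρ : ContDiff ℝ 1 (Core.Field.rho Γ o) :=
    (Core.Field.contDiff_rho Γ hG).comp (contDiff_prodMk_right o)
  have hV : ContDiff ℝ 1 (Γ.V o) := (Core.Field.contDiff_V Γ).comp (contDiff_prodMk_right o)
  exact (hφ.comp hρ).smul hV

/-- The total variation bounds the integral against the profile. -/
theorem integral_prof_le (hG : IsMetric G) (Γ : Geo G) {f : E n → ℝ} (hf : Cls f) (o : E n) :
    ((n : ℝ) - 1) * ∫ x, f x * prof (Core.Field.rho Γ o x) ∂vol G ≤ tvar G f := by
  set Z : E n → E n := Core.Field.radial Γ prof o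
  have hZ : ContDiff ℝ 1 Z := contDiff_radial_right hG Γ contDiff_prof o
  have hρc : Continuous fun x => Core.Field.rho Γ o x :=
    (Core.Field.contDiff_rho Γ hG).continuous.comp (Continuous.prodMk_right o)
  have hdiv := fun y => le_divg_radial hG Γ o y
  have hdc : Continuous (divg G Z) := continuous_finsetSum _ fun i _ =>
    (EuclideanSpace.proj (𝕜 := ℝ) i).continuous.comp
      (((hZ.continuous_fderiv one_ne_zero).clm_apply continuous_const).add
        (hG.contDiff_chr.continuous.comp
          (continuous_id.prodMk (continuous_const.prodMk hZ.continuous))))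
  have hfin := Core.Mini.finite_surf hG hf.c1 hf.supp
  have hc := hf.c1.continuous
  calc ((n : ℝ) - 1) * ∫ x, f x * prof (Core.Field.rho Γ o x) ∂vol G
      = ∫ x, f x * (((n : ℝ) - 1) * prof (Core.Field.rho Γ o x)) ∂vol G := by
        rw [← integral_const_mul]
        exact integral_congr_ae (Eventually.of_forall fun x => by ring)
    _ ≤ ∫ x, f x * divg G Z x ∂vol G :=
        integral_mono (Core.Mini.integrable_of_supp hG
            (hc.mul (continuous_const.mul (contDiff_prof.continuous.comp hρc))) hf.supp.mul_right)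
          (Core.Mini.integrable_of_supp hG (hc.mul hdc) hf.supp.mul_right)
          fun x => mul_le_mul_of_nonneg_left (hdiv x) (hf.mem x).1
    _ = ∫ y, G y (Z y) (normal G f y) ∂surf G f :=
        Core.Field.integral_mul_divg hG hf.c1 hf.supp hZ
    _ ≤ ∫ _, (1 : ℝ) ∂surf G f := by
        refine integral_mono ?_ (integrable_const (1 : ℝ)) fun y => ?_
        · exact Core.Field.integrable_normal hG hf.c1 hf.supp
            (Core.Mini.surf_ae_mem hG hf.c1) (F := fun p => G p.1 (Z p.1) p.2)
            ((Core.Mini.continuous_apply₂ hG).comp (continuous_fst.prodMk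
              ((hZ.continuous.comp continuous_fst).prodMk continuous_snd)))
        · refine (le_abs_self _).trans (abs_le_of_sq_le_sq ?_ zero_le_one)
          refine (Core.Field.inner_normal_sq_le hG f y (Z y)).trans ?_
          simp only [Z, Core.Field.radial, map_smul, smul_apply, smul_eq_mul,
            Core.Field.sq_V Γ hG, one_pow]
          linarith [sq_prof_mul_le (Core.Field.rho Γ o y)]
    _ = tvar G f := by
        rw [integral_const, smul_eq_mul, mul_one, Core.Mini.surf_real hG hf.c1 hf.supp]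

/-- The limit measure is not zero. -/
theorem neStmt : NeStmt := by
  intro n G e Γ hn hE _ f hf P η hη hpos hμ
  have hG := hE.metric
  have hn' : (3 : ℝ) ≤ n := by exact_mod_cast hn
  have hloc : LocallyIntegrable P.g (volume : Measure (E n)) :=
    (locallyIntegrable_const (1 : ℝ)).mono P.g_meas.aestronglyMeasurable
      (Eventually.of_forall fun x => by
        rw [norm_one, Real.norm_eq_abs, abs_of_nonneg (P.g_mem x).1]; exact (P.g_mem x).2)
  obtain ⟨c, hc⟩ := ae_eq_const_of_weak hloc fun φ hφ hφs w => by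
    have hd : ∀ x, dens G x ≠ 0 := fun x => (hG.dens_pos x).ne'
    have hZ : ContDiff ℝ 1 fun y => (φ y / dens G y) • w :=
      (hφ.div (Core.Field.contDiff_dens_one hG) hd).smul contDiff_const
    have h := fluxStmt n G hG f hf P _ hZ (hφs.mono fun y hy => by
      simp only [Function.mem_support] at hy ⊢
      exact fun h => hy (by simp [h]))
    rw [hμ, integral_zero_measure, Core.Field.integral_vol hG] at h
    rw [← h]
    refine integral_congr_ae (Eventually.of_forall fun y => ?_)
    have e : ∀ i, (fun z => dens G z * ((φ z / dens G z) • w) i) = fun z => φ z * w i := fun i =>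
      funext fun z => by simp only [PiLp.smul_apply, smul_eq_mul]; field_simp [hd z]
    simp only
    rw [mul_left_comm, Core.Field.dens_mul_divg hG hZ]
    simp only [e, fderiv_mul_const (hφ.differentiable one_ne_zero y), smul_apply, smul_eq_mul]
    rw [← Core.Field.sum_mul_coord (fderiv ℝ φ y) w]
    simp only [mul_comm]
  have hcv : ∀ u : E n → ℝ, ∫ x, u x * P.g x ∂vol G = c * ∫ x, u x ∂vol G := fun u => by
    rw [← integral_const_mul]
    refine integral_congr_ae ((withDensity_absolutelyContinuous volume _).ae_le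
      (hc.mono fun x hx => ?_))
    simp only [hx, mul_comm]
  have hc0 : 0 < c := by
    obtain ⟨x, hx⟩ := hc.exists
    refine lt_of_le_of_ne (hx ▸ (P.g_mem x).1) fun h => hpos.ne' ?_
    rw [wmass, hcv, ← h, zero_mul]
  have hn1 : (0 : ℝ) < (n : ℝ) - 1 := by linarith
  set ρ := Core.Field.rho Γ (0 : E n)
  have hρc : Continuous ρ :=
    (Core.Field.contDiff_rho Γ hG).continuous.comp (Continuous.prodMk_right (0 : E n))
  have hpc : Continuous fun x => prof (ρ x) := contDiff_prof.continuous.comp hρc
  have hbd : ∀ χ : E n → ℝ, Continuous χ → HasCompactSupport χ → (∀ x, χ x ∈ Icc (0 : ℝ) 1) →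
      ((n : ℝ) - 1) * (c * ∫ x, χ x * prof (ρ x) ∂vol G) ≤ P.A := by
    intro χ hχ hχs hχ01
    rw [← hcv]
    refine le_of_tendsto_of_tendsto' ((P.g_lim _ (hχ.mul hpc) hχs.mul_right).const_mul _)
      P.tvar_lim fun k => le_trans ?_ (integral_prof_le hG Γ (hf k) 0)
    refine mul_le_mul_of_nonneg_left (integral_mono
      (cls_integrable_mul hG (hχ.mul hpc) hχs.mul_right (hf k).c1.continuous.measurable (hf k).mem)
      (Core.Mini.integrable_of_supp hG ((hf k).c1.continuous.mul hpc) (hf k).supp.mul_right)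
      fun x => ?_) hn1.le
    simp only [mul_comm (f k x)]
    exact mul_le_mul_of_nonneg_right (mul_le_of_le_one_left (prof_pos _).le (hχ01 x).2)
      ((hf k).mem x).1
  set a : ℝ := (Real.sqrt ‖G 0‖ + 1)⁻¹
  have ha : 0 < a := by positivity
  set b : ℝ := dens G 0 * a ^ n * volume.real (ball (0 : E n) 1)
  have hb : 0 < b := by
    refine mul_pos (mul_pos (hG.dens_pos 0) (by positivity)) ?_
    exact ENNReal.toReal_pos (measure_ball_pos volume 0 one_pos).ne' measure_ball_lt_top.ne
  have := Core.Mini.locallyFinite_vol hG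
  have hball : ∀ R : ℝ, 0 ≤ R → b * R ^ n ≤ (vol G).real (Core.gball Γ 0 R) := by
    intro R hR
    have hK := Core.Mini.isCompact_gball Γ hG 0 R
    have h := Γ.polar 0 ((Core.gball Γ 0 R).indicator 1)
      (measurable_one.indicator hK.measurableSet)
    rw [lintegral_indicator_one hK.measurableSet] at h
    rw [measureReal_def, ← ENNReal.ofReal_le_iff_le_toReal hK.measure_lt_top.ne]
    refine le_trans ?_ h
    calc ENNReal.ofReal (b * R ^ n)
        = ∫⁻ v, (closedBall (0 : E n) (a * R)).indicator (fun _ => ENNReal.ofReal (dens G 0)) v := by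
          rw [lintegral_indicator measurableSet_closedBall, setLIntegral_const,
            Measure.addHaar_closedBall _ _ (by positivity), finrank_euclideanSpace_fin,
            ← ofReal_measureReal (h := measure_ball_lt_top.ne), ← ENNReal.ofReal_mul (by positivity),
            ← ENNReal.ofReal_mul (hG.dens_pos 0).le]
          congr 1
          simp only [b, mul_pow]
          ring
      _ ≤ _ := by
          refine lintegral_mono fun v => ?_
          by_cases hv : v ∈ closedBall (0 : E n) (a * R)
          · have hv' : (Γ.flow 1 (0, v)).1 ∈ Core.gball Γ 0 R := by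
              show gnorm G 0 (Γ.logm 0 (Γ.flow 1 (0, v)).1) ≤ R
              rw [Γ.logm_exp]
              rw [mem_closedBall_zero_iff, inv_mul_eq_div, le_div_iff₀ (by positivity)] at hv
              refine le_trans ?_ hv
              calc gnorm G 0 v ≤ Real.sqrt (‖G 0‖ * ‖v‖ ^ 2) := Real.sqrt_le_sqrt
                    ((Real.le_norm_self _).trans (((G 0).le_opNorm₂ v v).trans_eq (by ring)))
                _ ≤ _ := by
                    rw [Real.sqrt_mul (norm_nonneg _), Real.sqrt_sq (norm_nonneg _)]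
                    nlinarith [norm_nonneg v]
            rw [indicator_of_mem hv, indicator_of_mem hv', Pi.one_apply, one_mul]
          · rw [indicator_of_notMem hv]; exact bot_le
  obtain ⟨R, hR1, hR⟩ : ∃ R : ℝ, 1 ≤ R ∧ P.A < ((n : ℝ) - 1) * (c * (b * R / 2)) := by
    refine ⟨max 1 (2 * (|P.A| + 1) / (((n : ℝ) - 1) * c * b)), le_max_left _ _, ?_⟩
    have h := le_max_right 1 (2 * (|P.A| + 1) / (((n : ℝ) - 1) * c * b))
    rw [div_le_iff₀ (by positivity)] at h
    nlinarith [le_abs_self P.A]
  have hK := Core.Mini.isCompact_gball Γ hG 0 R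
  obtain ⟨χ, hχ1, hχs, -, hχ01⟩ := exists_continuousMap_one_of_isCompact_subset_isOpen
    hK isOpen_univ (subset_univ _)
  refine absurd (hbd χ χ.continuous hχs hχ01) (not_le.2 (hR.trans_le ?_))
  refine mul_le_mul_of_nonneg_left (mul_le_mul_of_nonneg_left ?_ hc0.le) hn1.le
  have h1 : b * R / 2 ≤ 1 / (1 + R) * (vol G).real (Core.gball Γ 0 R) := by
    refine le_trans ?_ (mul_le_mul_of_nonneg_left (hball R (by linarith)) (by positivity))
    rw [div_mul_eq_mul_div, one_mul, div_le_div_iff₀ two_pos (by linarith)]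
    have h2 : R ^ 2 ≤ R ^ n := pow_le_pow_right₀ hR1 (by omega)
    have h3 : R * (1 + R) ≤ 2 * R ^ n := by nlinarith
    nlinarith [mul_le_mul_of_nonneg_left h3 hb.le]
  refine h1.trans ?_
  have hi := Core.Mini.integrable_of_supp hG (χ.continuous.mul hpc) (HasCompactSupport.mul_right hχs)
  calc 1 / (1 + R) * (vol G).real (Core.gball Γ 0 R)
      = ∫ _ in Core.gball Γ 0 R, 1 / (1 + R) ∂vol G := by
        rw [setIntegral_const, smul_eq_mul, mul_comm]
    _ ≤ ∫ x in Core.gball Γ 0 R, χ x * prof (ρ x) ∂vol G := by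
        refine setIntegral_mono_on (integrableOn_const hK.measure_lt_top.ne) hi.integrableOn
          hK.measurableSet fun x hx => ?_
        rw [hχ1 hx, Pi.one_apply, one_mul]
        refine le_prof (Core.Field.rho_nonneg Γ hG 0 x) ?_ (by linarith)
        show Core.Field.rho Γ 0 x ≤ _
        rw [← Core.Field.dist_sq Γ hG]
        exact pow_le_pow_left₀ (Core.Field.dist_nonneg Γ 0 x) hx 2
    _ ≤ _ := setIntegral_le_integral hi
        (Eventually.of_forall fun x => mul_nonneg (hχ01 x).1 (prof_pos _).le)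

end

end Vale.Agent.P219.CH.Full.Limit
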