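import Mathlib

/-!
P219 Limit 3: the product of the means of `f` and `1 - f` over a Euclidean ball.
-/

namespace Vale.Agent.P219.CH.Full.Limit

open MeasureTheory Filter Topology Set Metric
open scoped ENNReal

noncomputable section

variable {V : Type*} [NormedAddCommGroup V] [InnerProductSpace ℝ V] [FiniteDimensional ℝ V]
  [MeasurableSpace V] [BorelSpace V] {μ : Measure V} [μ.IsAddHaarMeasure]

omit [FiniteDimensional ℝ V] [MeasurableSpace V] [BorelSpace V] in
theorem ofReal_abs_sub_le {f : V → ℝ} (hf : ContDiff ℝ 1 f) (x v : V) :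
    ENNReal.ofReal |f (x + v) - f x| ≤
      ∫⁻ s in Ioc (0 : ℝ) 1, ENNReal.ofReal (‖fderiv ℝ f (x + s • v)‖ * ‖v‖) := by
  have hd : ∀ s : ℝ, HasDerivAt (fun s => f (x + s • v)) (fderiv ℝ f (x + s • v) v) s := fun s => by
    have h1 : HasDerivAt (fun s : ℝ => x + s • v) v s := by
      simpa using ((hasDerivAt_id s).smul_const v).const_add x
    exact (hf.differentiable one_ne_zero _).hasFDerivAt.comp_hasDerivAt s h1
  have hc : Continuous fun s : ℝ => fderiv ℝ f (x + s • v) :=
    (hf.continuous_fderiv one_ne_zero).comp (by fun_prop)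
  have h := intervalIntegral.integral_eq_sub_of_hasDerivAt (a := 0) (b := 1) (fun s _ => hd s)
    ((hc.clm_apply continuous_const).intervalIntegrable 0 1)
  simp only [one_smul, zero_smul, add_zero] at h
  rw [← h, intervalIntegral.integral_of_le zero_le_one]
  have hi : Integrable (fun s => ‖fderiv ℝ f (x + s • v)‖ * ‖v‖) (volume.restrict (Ioc (0 : ℝ) 1)) :=
    ((hc.norm.mul continuous_const).integrableOn_Ioc)
  rw [← ofReal_integral_eq_lintegral_ofReal hi (Eventually.of_forall fun s => by positivity)]
  refine ENNReal.ofReal_le_ofReal ?_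
  rw [← Real.norm_eq_abs]
  exact norm_integral_le_of_norm_le hi
    (Eventually.of_forall fun s => (fderiv ℝ f (x + s • v)).le_opNorm v)

/-- The double integral of the oscillation in a ball. -/
theorem lintegral_osc_le {f : V → ℝ} (hf : ContDiff ℝ 1 f) (x₀ : V) {R : ℝ} (hR : 0 ≤ R) :
    ∫⁻ x in closedBall x₀ R, ∫⁻ y in closedBall x₀ R, ENNReal.ofReal |f y - f x| ∂μ ∂μ ≤
      ENNReal.ofReal (2 * R) * μ (closedBall 0 (2 * R)) *
        ∫⁻ y in closedBall x₀ R, ENNReal.ofReal ‖fderiv ℝ f y‖ ∂μ := by
  set B := closedBall x₀ R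
  set h : V → ℝ≥0∞ := B.indicator fun y => ENNReal.ofReal ‖fderiv ℝ f y‖
  have hhm : Measurable h :=
    ((hf.continuous_fderiv one_ne_zero).norm.measurable.ennreal_ofReal).indicator
      measurableSet_closedBall
  set W := (closedBall (0 : V) (2 * R)).indicator fun _ => ENNReal.ofReal (2 * R)
  have hWm : Measurable W := measurable_const.indicator measurableSet_closedBall
  have hpt : ∀ x v, B.indicator 1 x * B.indicator (fun y => ENNReal.ofReal |f y - f x|) (x + v) ≤
      W v * ∫⁻ s in Ioc (0 : ℝ) 1, h (x + s • v) := by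
    intro x v
    by_cases hx : x ∈ B
    swap
    · simp [hx]
    by_cases hxv : x + v ∈ B
    swap
    · simp [hxv]
    have hv : ‖v‖ ≤ 2 * R := by
      have h1 := mem_closedBall.1 hx
      have h2 := mem_closedBall.1 hxv
      calc ‖v‖ = dist (x + v) x := by simp [dist_eq_norm]
        _ ≤ dist (x + v) x₀ + dist x x₀ := dist_triangle_right _ _ _
        _ ≤ 2 * R := by linarith
    rw [indicator_of_mem hxv, indicator_of_mem hx, Pi.one_apply, one_mul,
      show W v = ENNReal.ofReal (2 * R) from indicator_of_mem (mem_closedBall_zero_iff.2 hv) _]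
    refine (ofReal_abs_sub_le hf x v).trans ?_
    rw [← lintegral_const_mul' _ _ ENNReal.ofReal_ne_top]
    refine setLIntegral_mono' measurableSet_Ioc fun s hs => ?_
    have hm : x + s • v ∈ B := (convex_closedBall x₀ R).add_smul_mem hx hxv ⟨hs.1.le, hs.2⟩
    rw [show h (x + s • v) = _ from indicator_of_mem hm _,
      ← ENNReal.ofReal_mul (by linarith : (0 : ℝ) ≤ 2 * R)]
    refine ENNReal.ofReal_le_ofReal ?_
    rw [mul_comm (2 * R)]
    exact mul_le_mul_of_nonneg_left hv (norm_nonneg _)
  have hmeas : Measurable fun p : (V × V) × ℝ => h (p.1.1 + p.2 • p.1.2) :=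
    hhm.comp (by fun_prop : Continuous fun p : (V × V) × ℝ => p.1.1 + p.2 • p.1.2).measurable
  have hinner : Measurable fun p : V × V => ∫⁻ s in Ioc (0 : ℝ) 1, h (p.1 + s • p.2) :=
    hmeas.lintegral_prod_right'
  calc ∫⁻ x in B, ∫⁻ y in B, ENNReal.ofReal |f y - f x| ∂μ ∂μ
      = ∫⁻ x, ∫⁻ v, B.indicator 1 x *
          B.indicator (fun y => ENNReal.ofReal |f y - f x|) (x + v) ∂μ ∂μ := by
        rw [← lintegral_indicator measurableSet_closedBall]
        refine lintegral_congr fun x => ?_
        by_cases hx : x ∈ B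
        · rw [indicator_of_mem hx, indicator_of_mem hx, ← lintegral_indicator measurableSet_closedBall,
            ← lintegral_add_left_eq_self _ x]
          simp
          rfl
        · rw [indicator_of_notMem hx, indicator_of_notMem hx]; simp
    _ ≤ ∫⁻ x, ∫⁻ v, W v * (∫⁻ s in Ioc (0 : ℝ) 1, h (x + s • v)) ∂μ ∂μ :=
        lintegral_mono fun x => lintegral_mono fun v => hpt x v
    _ = ∫⁻ v, W v * (∫⁻ x, (∫⁻ s in Ioc (0 : ℝ) 1, h (x + s • v)) ∂μ) ∂μ := by
        rw [lintegral_lintegral_swap ((hWm.comp measurable_snd).mul hinner).aemeasurable]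
        exact lintegral_congr fun v => lintegral_const_mul _
          (hinner.comp (measurable_id.prodMk measurable_const))
    _ = ∫⁻ v, W v * (∫⁻ y, h y ∂μ) ∂μ := by
        refine lintegral_congr fun v => ?_
        congr 1
        have hm2 : Measurable fun p : V × ℝ => h (p.1 + p.2 • v) :=
          hhm.comp (by fun_prop : Continuous fun p : V × ℝ => p.1 + p.2 • v).measurable
        rw [lintegral_lintegral_swap (f := fun x s => h (x + s • v)) hm2.aemeasurable]
        simp only [lintegral_add_right_eq_self]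
        simp
    _ = _ := by
        rw [lintegral_mul_const _ hWm, lintegral_indicator measurableSet_closedBall,
          setLIntegral_const, lintegral_indicator measurableSet_closedBall]

/-- The product of the integrals of `f` and `1 - f` over a ball. -/
theorem pair_le {f : V → ℝ} (hf : ContDiff ℝ 1 f) (h01 : ∀ x, f x ∈ Icc (0 : ℝ) 1) (x₀ : V)
    {R : ℝ} (hR : 0 ≤ R) :
    (∫ x in closedBall x₀ R, f x ∂μ) * (∫ x in closedBall x₀ R, (1 - f x) ∂μ) ≤
      μ.real (closedBall x₀ R) * (∫ x in closedBall x₀ R, f x * (1 - f x) ∂μ) +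
        2 * R * μ.real (closedBall 0 (2 * R)) * ∫ x in closedBall x₀ R, ‖fderiv ℝ f x‖ ∂μ := by
  set B := closedBall x₀ R
  have hK : IsCompact B := isCompact_closedBall x₀ R
  have : IsFiniteMeasure (μ.restrict B) := ⟨by rw [Measure.restrict_apply_univ]; exact hK.measure_lt_top⟩
  have hi : ∀ {u : V → ℝ}, Continuous u → Integrable u (μ.restrict B) := fun hu =>
    hu.continuousOn.integrableOn_compact hK
  have hij : ∀ x, Integrable (fun y => |f y - f x|) (μ.restrict B) := fun x =>
    hi (hf.continuous.sub continuous_const).abs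
  have hout : Integrable (fun x => ∫ y in B, |f y - f x| ∂μ) (μ.restrict B) := hi
    (continuous_parametric_integral_of_continuous (by fun_prop) hK)
  have h1 : (∫ x in B, f x ∂μ) * (∫ y in B, (1 - f y) ∂μ) ≤
      ∫ x in B, (f x * (1 - f x) * μ.real B + ∫ y in B, |f y - f x| ∂μ) ∂μ := by
    rw [← integral_mul_const]
    refine integral_mono ((hi hf.continuous).mul_const _)
      (((hi (hf.continuous.mul (continuous_const.sub hf.continuous))).mul_const _).add hout)
      fun x => ?_
    simp only
    rw [← integral_const_mul]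
    calc ∫ y in B, f x * (1 - f y) ∂μ ≤ ∫ y in B, (f x * (1 - f x) + |f y - f x|) ∂μ := by
          refine integral_mono ((hi (continuous_const.sub hf.continuous)).const_mul _)
            ((integrable_const _).add (hij x)) fun y => ?_
          rcases abs_cases (f y - f x) with ⟨he, h⟩ | ⟨he, h⟩ <;> rw [he] <;>
            nlinarith [(h01 x).1, (h01 x).2]
      _ = _ := by
          rw [integral_add (integrable_const _) (hij x), setIntegral_const, smul_eq_mul, mul_comm]
  have hi2 : Integrable (fun x => f x * (1 - f x) * μ.real B) (μ.restrict B) :=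
    (hi (hf.continuous.mul (continuous_const.sub hf.continuous))).mul_const _
  refine h1.trans ?_
  rw [integral_add hi2 hout,
    integral_mul_const, mul_comm (μ.real B)]
  refine add_le_add le_rfl ?_
  rw [← ENNReal.ofReal_le_ofReal_iff (by positivity),
    ofReal_integral_eq_lintegral_ofReal hout
      (Eventually.of_forall fun x => integral_nonneg fun y => abs_nonneg _)]
  calc ∫⁻ x in B, ENNReal.ofReal (∫ y in B, |f y - f x| ∂μ) ∂μ
      = ∫⁻ x in B, ∫⁻ y in B, ENNReal.ofReal |f y - f x| ∂μ ∂μ :=
        lintegral_congr fun x => ofReal_integral_eq_lintegral_ofReal (hij x)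
          (Eventually.of_forall fun y => abs_nonneg _)
    _ ≤ _ := lintegral_osc_le hf x₀ hR
    _ = _ := by
        rw [ENNReal.ofReal_mul (by positivity : (0 : ℝ) ≤ 2 * R * μ.real (closedBall 0 (2 * R))),
          ENNReal.ofReal_mul (by positivity : (0 : ℝ) ≤ 2 * R),
          ofReal_measureReal (h := measure_closedBall_lt_top.ne), ofReal_integral_eq_lintegral_ofReal
            (hi (hf.continuous_fderiv one_ne_zero).norm)
            (Eventually.of_forall fun y => norm_nonneg _)]

end

end Vale.Agent.P219.CH.Full.Limit
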