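import Vale.Agent.P219.CH.Full.Limit.Vague
import Vale.Agent.P219.CH.Full.Statements
import Vale.Agent.P219.CH.Core.MinTools
import Vale.Agent.P219.CH.Core.Field.Surf

/-!
P219 Limit 2: weak limits of competitors exist, and their normal measure is the derivative of
the limit.
-/

namespace Vale.Agent.P219.CH.Full.Limit

open MeasureTheory Filter Topology Set
open scoped ContDiff

noncomputable section

variable {n : ℕ} {G : Coeff n}

theorem cls_integrable_mul (hG : IsMetric G) {φ : E n → ℝ} (hφ : Continuous φ)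
    (hs : HasCompactSupport φ) {g : E n → ℝ} (hg : Measurable g) (hg1 : ∀ x, g x ∈ Icc (0 : ℝ) 1) :
    Integrable (fun x => φ x * g x) (vol G) :=
  (Core.Mini.integrable_of_supp hG hφ hs).mul_bdd (c := 1) hg.aestronglyMeasurable
    (Eventually.of_forall fun x => by
      rw [Real.norm_eq_abs, abs_of_nonneg (hg1 x).1]; exact (hg1 x).2)

theorem measurable_graph (hG : IsMetric G) {f : E n → ℝ} (hf : ContDiff ℝ 1 f) :
    Measurable fun x => (x, normal G f x) :=
  measurable_id.prodMk (Core.Mini.measurable_normal hG hf)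

/-- The normal is a unit vector almost everywhere on the level sets. -/
theorem surf_normal_eq_one (hG : IsMetric G) {f : E n → ℝ} (hf : ContDiff ℝ 1 f) :
    ∀ᵐ x ∂surf G f, G x (normal G f x) (normal G f x) = 1 := by
  rw [surf, ae_withDensity_iff (Core.Field.continuous_gnorm_grad hG hf).measurable.ennreal_ofReal]
  refine Eventually.of_forall fun x hx => ?_
  rcases Core.Field.normal_sq hG f x with h | h
  · exfalso
    apply hx
    simp only [normal, neg_smul, neg_eq_zero, smul_eq_zero, inv_eq_zero] at h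
    rcases h with h | h
    · rw [h, ENNReal.ofReal_zero]
    · simp [h, gnorm]
  · exact h

/-- Weak limits exist. -/
theorem preStmt : PreStmt := by
  intro n G hG f hf hB
  obtain ⟨B, hB⟩ := hB
  set l : Ultrafilter ℕ := Ultrafilter.of atTop
  have hfin : ∀ k, IsFiniteMeasure (surf G (f k)) := fun k =>
    Core.Mini.finite_surf hG (hf k).c1 (hf k).supp
  set m : ℕ → Measure (E n × E n) := fun k => (surf G (f k)).map fun x => (x, normal G (f k) x)
  have hm : ∀ k, IsFiniteMeasure (m k) := fun k => Measure.isFiniteMeasure_map _ _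
  have hmu : ∀ k, (m k).real univ = tvar G (f k) := fun k => by
    rw [measureReal_def, Measure.map_apply (measurable_graph hG (hf k).c1) MeasurableSet.univ,
      preimage_univ, ← measureReal_def, Core.Mini.surf_real hG (hf k).c1 (hf k).supp]
  obtain ⟨μ, hμc, -, hμF, hμ0, hμA⟩ := exists_vague m
    (fun K _ => ⟨B, fun k => (measureReal_mono (subset_univ K)).trans ((hmu k).trans_le (hB k))⟩) l
  obtain ⟨A, -, hA⟩ := isCompact_Icc.ultrafilter_le_nhds (l.map fun k => tvar G (f k))
    (s := Icc 0 B) (by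
      rw [le_principal_iff, Ultrafilter.mem_coe, Ultrafilter.mem_map]
      exact univ_mem' fun k => ⟨Core.Mini.tvar_nonneg G (f k), hB k⟩)
  have hA0 : 0 ≤ A := ge_of_tendsto' hA fun k => Core.Mini.tvar_nonneg G (f k)
  have hmass := hμA A (fun k => measure_ne_top _ _)
    (Tendsto.congr (fun k => (hmu k).symm) hA)
  have hμfin : IsFiniteMeasure μ := ⟨hmass.trans_lt ENNReal.ofReal_lt_top⟩
  have hopen : IsOpen {p : E n × E n | G p.1 p.2 p.2 ≠ 1} :=
    isOpen_ne_fun ((Core.Mini.continuous_apply₂ hG).comp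
      (continuous_fst.prodMk (continuous_snd.prodMk continuous_snd))) continuous_const
  have hunit : ∀ᵐ p ∂μ, G p.1 p.2 p.2 = 1 := by
    rw [ae_iff]
    refine hμ0 _ hopen fun k => ?_
    rw [Measure.map_apply (measurable_graph hG (hf k).c1) hopen.measurableSet]
    exact ae_iff.1 (surf_normal_eq_one hG (hf k).c1)
  have := Core.Mini.locallyFinite_vol hG
  set d : ℕ → E n → NNReal := fun k x => (f k x).toNNReal
  have hd : ∀ k, Measurable (d k) := fun k => (hf k).c1.continuous.measurable.real_toNNReal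
  set m' : ℕ → Measure (E n) := fun k => (vol G).withDensity fun x => (d k x : ENNReal)
  have hm'le : ∀ k, m' k ≤ vol G := fun k => by
    conv_rhs => rw [← withDensity_one (μ := vol G)]
    refine withDensity_mono (Eventually.of_forall fun x => ?_)
    simpa [d] using (hf k).mem x |>.2
  have hm' : ∀ k, IsFiniteMeasureOnCompacts (m' k) := fun k =>
    ⟨fun K hK => (hm'le k K).trans_lt hK.measure_lt_top⟩
  have hint : ∀ k (φ : E n → ℝ), ∫ x, φ x ∂m' k = ∫ x, φ x * f k x ∂vol G := fun k φ => by
    rw [integral_withDensity_eq_integral_smul (hd k)]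
    refine integral_congr_ae (Eventually.of_forall fun x => ?_)
    simp [d, NNReal.smul_def, Real.coe_toNNReal _ ((hf k).mem x).1, mul_comm]
  obtain ⟨ν, hνc, hνr, hνF, -, -⟩ := exists_vague m'
    (fun K hK => ⟨(vol G).real K,
      fun k => ENNReal.toReal_mono hK.measure_lt_top.ne (hm'le k K)⟩) l
  have hνle : ν ≤ vol G := le_of_integral_le fun φ hφ hs h01 => by
    refine le_of_tendsto' (hνF φ hφ hs) fun k => ?_
    rw [hint]
    exact integral_mono (cls_integrable_mul hG hφ hs (hf k).c1.continuous.measurable (hf k).mem)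
      (Core.Mini.integrable_of_supp hG hφ hs)
      fun x => mul_le_of_le_one_right (h01 x).1 ((hf k).mem x).2
  set g : E n → ℝ := fun x => min 1 (ν.rnDeriv (vol G) x).toReal
  have hg1 : ∀ᵐ x ∂vol G, g x = (ν.rnDeriv (vol G) x).toReal := by
    filter_upwards [Measure.rnDeriv_le_one_of_le hνle] with x hx
    refine min_eq_right ?_
    simpa using ENNReal.toReal_mono ENNReal.one_ne_top hx
  refine ⟨⟨l, inferInstance, Ultrafilter.of_le _, μ, hμfin, hunit, g,
    measurable_const.min (Measure.measurable_rnDeriv _ _).ennreal_toReal,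
    fun x => ⟨le_min zero_le_one ENNReal.toReal_nonneg, min_le_left _ _⟩, A, hA,
    ENNReal.toReal_le_of_le_ofReal hA0 hmass, fun F hF hs => ?_, fun φ hφ hs => ?_⟩⟩
  · refine (hμF F hF hs).congr fun k => ?_
    exact integral_map (measurable_graph hG (hf k).c1).aemeasurable hF.aestronglyMeasurable
  · have e : ∫ x, φ x * g x ∂vol G = ∫ x, φ x ∂ν := by
      rw [← integral_rnDeriv_smul (Measure.absolutelyContinuous_of_le hνle)]
      refine integral_congr_ae ?_
      filter_upwards [hg1] with x hx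
      rw [hx, smul_eq_mul, mul_comm]
    rw [e]
    exact (hνF φ hφ hs).congr fun k => hint k φ

/-- A cutoff equal to one on unit vectors over a compact set. -/
theorem exists_fibre_cutoff (hG : IsMetric G) {K : Set (E n)} (hK : IsCompact K) :
    ∃ χ : C(E n × E n, ℝ), HasCompactSupport χ ∧
      ∀ p : E n × E n, p.1 ∈ K → G p.1 p.2 p.2 ≤ 1 → χ p = 1 := by
  obtain ⟨C, hC, hCv⟩ : ∃ C : ℝ, 0 ≤ C ∧ ∀ x ∈ K, ∀ v, G x v v ≤ 1 → ‖v‖ ≤ C := by
    obtain ⟨m, hm, hmin⟩ := (hK.prod (isCompact_sphere (0 : E n) 1)).exists_forall_le'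
      (f := fun p => G p.1 p.2 p.2) ((Core.Mini.continuous_apply₂ hG).comp
        (continuous_fst.prodMk (continuous_snd.prodMk continuous_snd))).continuousOn (a := 0)
      fun p hp => hG.pos p.1 p.2 fun e => by simpa [e] using hp.2
    refine ⟨1 / Real.sqrt m, by positivity, fun x hx v hv => ?_⟩
    rcases eq_or_ne v 0 with rfl | hv0
    · simp [hm.le]
    have h0 : 0 < ‖v‖ := norm_pos_iff.2 hv0
    have := hmin (x, ‖v‖⁻¹ • v) ⟨hx, by simp [norm_smul, inv_mul_cancel₀ h0.ne']⟩
    simp only [map_smul, smul_apply, smul_eq_mul] at this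
    have h1 : m * ‖v‖ ^ 2 ≤ 1 := by
      have e : ‖v‖⁻¹ * (‖v‖⁻¹ * G x v v) * ‖v‖ ^ 2 = G x v v := by field_simp
      nlinarith [mul_le_mul_of_nonneg_right this (sq_nonneg ‖v‖)]
    rw [le_div_iff₀ (Real.sqrt_pos.2 hm)]
    calc ‖v‖ * Real.sqrt m = Real.sqrt (m * ‖v‖ ^ 2) := by
          rw [Real.sqrt_mul hm.le, Real.sqrt_sq h0.le]; ring
      _ ≤ 1 := Real.sqrt_le_one.2 h1
  obtain ⟨χ, h1, h2, -, -⟩ := exists_continuousMap_one_of_isCompact_subset_isOpen
    (hK.prod (isCompact_closedBall (0 : E n) C)) isOpen_univ (subset_univ _)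
  exact ⟨χ, h2, fun p hp hv => h1 ⟨hp, mem_closedBall_zero_iff.2 (hCv p.1 hp p.2 hv)⟩⟩

/-- Weak convergence for functions supported over a compact set of base points. -/
theorem Pre.mu_lim_base {f : ℕ → E n → ℝ} (hG : IsMetric G) (hf : ∀ k, Cls (f k)) (P : Pre G f)
    {F : E n × E n → ℝ} (hF : Continuous F) {K : Set (E n)} (hK : IsCompact K)
    (hFK : ∀ p, p.1 ∉ K → F p = 0) :
    Tendsto (fun k => ∫ x, F (x, normal G (f k) x) ∂surf G (f k)) P.l (𝓝 (∫ p, F p ∂P.μ)) := by
  obtain ⟨χ, hχs, hχ1⟩ := exists_fibre_cutoff hG hK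
  have h := P.mu_lim _ (hF.mul χ.continuous) hχs.mul_left
  have e1 : ∫ p, (F * χ) p ∂P.μ = ∫ p, F p ∂P.μ := by
    refine integral_congr_ae ?_
    filter_upwards [P.unit] with p hp
    by_cases hx : p.1 ∈ K
    · simp [hχ1 p hx hp.le]
    · simp [hFK p hx]
  rw [e1] at h
  refine h.congr fun k => integral_congr_ae ?_
  filter_upwards [surf_normal_eq_one hG (hf k).c1] with x hx
  by_cases hxK : x ∈ K
  · simp [hχ1 (x, normal G (f k) x) hxK hx.le]
  · simp [hFK (x, normal G (f k) x) hxK]

/-- The normal measure is the derivative of the limit. -/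
theorem fluxStmt : FluxStmt := by
  intro n G hG f hf P Z hZ hZs
  have h1 := Pre.mu_lim_base hG hf P (F := fun p => G p.1 (Z p.1) p.2)
    ((Core.Mini.continuous_apply₂ hG).comp (continuous_fst.prodMk
      ((hZ.continuous.comp continuous_fst).prodMk continuous_snd))) hZs
    (fun p hp => by simp [image_eq_zero_of_notMem_tsupport hp])
  have hdiv : ∀ x, x ∉ tsupport Z → divg G Z x = 0 := fun x hx => by
    simp [divg, covd, fderiv_of_notMem_tsupport (𝕜 := ℝ) hx, image_eq_zero_of_notMem_tsupport hx,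
      chr_zero_right]
  have hdc : Continuous (divg G Z) := continuous_finsetSum _ fun i _ =>
    (EuclideanSpace.proj (𝕜 := ℝ) i).continuous.comp
      (((hZ.continuous_fderiv one_ne_zero).clm_apply continuous_const).add
        (hG.contDiff_chr.continuous.comp
          (continuous_id.prodMk (continuous_const.prodMk hZ.continuous))))
  have h2 := P.g_lim (divg G Z) hdc (HasCompactSupport.intro hZs hdiv)
  have e : ∀ k, ∫ x, divg G Z x * f k x ∂vol G =
      ∫ x, G x (Z x) (normal G (f k) x) ∂surf G (f k) := fun k => by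
    rw [← Core.Field.integral_mul_divg hG (hf k).c1 (hf k).supp hZ]
    simp only [mul_comm]
  rw [← tendsto_nhds_unique (h2.congr e) h1]
  simp only [mul_comm]

end

end Vale.Agent.P219.CH.Full.Limit
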