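import Mathlib

/-!
P219 Limit 1: vague limits along an ultrafilter of measures bounded on compact sets.
-/

namespace Vale.Agent.P219.CH.Full.Limit

open MeasureTheory Filter Topology Set Function
open CompactlySupported

variable {X : Type*} [TopologicalSpace X] [T2Space X] [LocallyCompactSpace X]
  [SecondCountableTopology X] [MeasurableSpace X] [BorelSpace X]

/-- Measures bounded on compact sets have a vague limit along any ultrafilter. -/
theorem exists_vague (m : ℕ → Measure X) [∀ k, IsFiniteMeasureOnCompacts (m k)]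
    (hB : ∀ K, IsCompact K → ∃ C, ∀ k, (m k).real K ≤ C) (l : Ultrafilter ℕ) :
    ∃ μ : Measure X, IsFiniteMeasureOnCompacts μ ∧ μ.Regular ∧
      (∀ F : X → ℝ, Continuous F → HasCompactSupport F →
        Tendsto (fun k => ∫ x, F x ∂m k) l (𝓝 (∫ x, F x ∂μ))) ∧
      (∀ U, IsOpen U → (∀ k, m k U = 0) → μ U = 0) ∧
      ∀ A : ℝ, (∀ k, m k univ ≠ ⊤) → Tendsto (fun k => (m k).real univ) l (𝓝 A) →
        μ univ ≤ ENNReal.ofReal A := by
  have hbd : ∀ f : C_c(X, ℝ), ∃ C, ∀ k, |∫ x, f x ∂m k| ≤ C := by
    intro f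
    obtain ⟨C, hC⟩ := hB _ f.hasCompactSupport
    obtain ⟨M, hM⟩ := f.continuous.bounded_above_of_compact_support f.hasCompactSupport
    refine ⟨|M| * |C|, fun k => ?_⟩
    rw [← setIntegral_tsupport (F := (f : X → ℝ)), ← Real.norm_eq_abs]
    refine (norm_setIntegral_le_of_norm_le_const f.hasCompactSupport.measure_lt_top
      fun x _ => hM x).trans ?_
    refine (le_abs_self _).trans ?_
    rw [abs_mul]
    exact mul_le_mul_of_nonneg_left ((abs_of_nonneg measureReal_nonneg).le.trans
      ((hC k).trans (le_abs_self C))) (abs_nonneg _)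
  have hlim : ∀ f : C_c(X, ℝ), ∃ c, Tendsto (fun k => ∫ x, f x ∂m k) l (𝓝 c) := by
    intro f
    obtain ⟨C, hC⟩ := hbd f
    obtain ⟨c, -, hc⟩ := isCompact_Icc.ultrafilter_le_nhds (l.map fun k => ∫ x, f x ∂m k)
      (s := Icc (-C) C) (by
        rw [le_principal_iff, Ultrafilter.mem_coe, Ultrafilter.mem_map]
        exact univ_mem' fun k => abs_le.1 (hC k))
    exact ⟨c, hc⟩
  choose Lf hLf using hlim
  let Λ : C_c(X, ℝ) →ₚ[ℝ] ℝ :=
  { toFun := Lf
    map_add' := fun f g => tendsto_nhds_unique (hLf (f + g)) <| ((hLf f).add (hLf g)).congr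
      fun k => (integral_add f.integrable g.integrable).symm
    map_smul' := fun c f => tendsto_nhds_unique (hLf (c • f)) <| ((hLf f).const_mul c).congr
      fun k => by simp [integral_const_mul]
    monotone' := fun f g h => le_of_tendsto_of_tendsto' (hLf f) (hLf g)
      fun k => integral_mono f.integrable g.integrable h }
  have hΛ : ∀ f, Λ f = Lf f := fun _ => rfl
  have hz : ∀ U : Set X, IsOpen U → ∀ c : ℝ,
      (∀ f : C_c(X, ℝ), tsupport f ⊆ U → (∀ x, f x ∈ Icc (0 : ℝ) 1) → Lf f ≤ c) →
      RealRMK.rieszMeasure Λ U ≤ ENNReal.ofReal c := by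
    intro U hU c hc
    rw [hU.measure_eq_iSup_isCompact]
    refine iSup₂_le fun K hKU => iSup_le fun hK => ?_
    obtain ⟨f, hf1, hf2, hf3, hf4⟩ :=
      exists_continuousMap_one_of_isCompact_subset_isOpen hK hU hKU
    refine (RealRMK.rieszMeasure_le_of_eq_one Λ (f := ⟨f, hf2⟩) (fun x => (hf4 x).1) hK
      fun x hx => hf1 hx).trans (ENNReal.ofReal_le_ofReal ?_)
    exact hc _ hf3 hf4
  refine ⟨RealRMK.rieszMeasure Λ, inferInstance, inferInstance, fun F hF hs => ?_, ?_, ?_⟩
  · have h := hLf ⟨⟨F, hF⟩, hs⟩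
    rw [← hΛ, ← RealRMK.integral_rieszMeasure Λ] at h
    exact h
  · intro U hU hU0
    refine le_antisymm ((hz U hU 0 fun f hf _ => le_of_eq ?_).trans_eq ENNReal.ofReal_zero)
      bot_le
    refine tendsto_nhds_unique (hLf f) (tendsto_const_nhds.congr fun k => (?_ : _ = _).symm)
    refine integral_eq_zero_of_ae ?_
    filter_upwards [measure_eq_zero_iff_ae_notMem.1 (hU0 k)] with x hx
    exact image_eq_zero_of_notMem_tsupport fun h => hx (hf h)
  · intro A hfin hA
    refine hz univ isOpen_univ A fun f _ hf => ?_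
    refine le_of_tendsto_of_tendsto' (hLf f) hA fun k => ?_
    have : IsFiniteMeasure (m k) := ⟨(hfin k).lt_top⟩
    calc ∫ x, f x ∂m k ≤ ∫ _, (1 : ℝ) ∂m k :=
          integral_mono f.integrable (integrable_const 1) fun x => (hf x).2
      _ = (m k).real univ := by simp

/-- A regular measure whose integrals of cutoff functions are below those of another is below
it. -/
theorem le_of_integral_le {μ ν : Measure X} [μ.Regular] [ν.OuterRegular]
    [IsFiniteMeasureOnCompacts μ] [IsFiniteMeasureOnCompacts ν]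
    (h : ∀ f : X → ℝ, Continuous f → HasCompactSupport f → (∀ x, f x ∈ Icc (0 : ℝ) 1) →
      ∫ x, f x ∂μ ≤ ∫ x, f x ∂ν) : μ ≤ ν := by
  refine Measure.le_iff.2 fun s _ => ?_
  rw [s.measure_eq_iInf_isOpen ν]
  refine le_iInf₂ fun U hsU => le_iInf fun hU => (measure_mono hsU).trans ?_
  rw [hU.measure_eq_iSup_isCompact μ]
  refine iSup₂_le fun K hKU => iSup_le fun hK => ?_
  obtain ⟨f, hf1, hf2, hf3, hf4⟩ := exists_continuousMap_one_of_isCompact_subset_isOpen hK hU hKU
  rcases eq_or_ne (ν U) ⊤ with hν | hν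
  · rw [hν]; exact le_top
  rw [← ENNReal.toReal_le_toReal hK.measure_lt_top.ne hν]
  have hfi : Integrable f μ := f.continuous.integrable_of_hasCompactSupport hf2
  have hfj : Integrable f ν := f.continuous.integrable_of_hasCompactSupport hf2
  calc μ.real K = ∫ x, K.indicator 1 x ∂μ := (integral_indicator_one hK.measurableSet).symm
    _ ≤ ∫ x, f x ∂μ := integral_mono
        ((continuousOn_const.integrableOn_compact hK).integrable_indicator hK.measurableSet) hfi
        fun x => by
          by_cases hx : x ∈ K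
          · simp [hx, hf1 hx]
          · simp [hx, (hf4 x).1]
    _ ≤ ∫ x, f x ∂ν := h f f.continuous hf2 hf4
    _ ≤ ∫ x, U.indicator 1 x ∂ν := integral_mono hfj
        ((integrableOn_const hν).integrable_indicator hU.measurableSet) fun x => by
          by_cases hx : x ∈ tsupport f
          · simp [hf3 hx, (hf4 x).2]
          · simp [image_eq_zero_of_notMem_tsupport hx, indicator_nonneg]
    _ = ν.real U := integral_indicator_one hU.measurableSet

end Vale.Agent.P219.CH.Full.Limit
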