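import Vale.Agent.P219.CH.Full.Limit.Pre
import Vale.Agent.P219.CH.Full.Limit.Pair

/-!
P219 Limit 4: the limit takes only the values zero and one.
-/

namespace Vale.Agent.P219.CH.Full.Limit

open MeasureTheory Filter Topology Set Metric
open scoped ContDiff

noncomputable section

set_option maxSynthPendingDepth 3

variable {n : ℕ} {G : Coeff n}

theorem integrableOn_of_mem {g : E n → ℝ} (hg : Measurable g) (hg1 : ∀ x, g x ∈ Icc (0 : ℝ) 1)
    {S : Set (E n)} (hS : IsCompact S) : IntegrableOn g S := by
  have := hS.measure_lt_top (μ := (volume : Measure (E n)))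
  exact IntegrableOn.of_bound this hg.aestronglyMeasurable 1
    (Eventually.of_forall fun x => by
      rw [Real.norm_eq_abs, abs_of_nonneg (hg1 x).1]; exact (hg1 x).2)

/-- Lebesgue integrals against a test function pass to the limit. -/
theorem Pre.lebesgue_lim {f : ℕ → E n → ℝ} (hG : IsMetric G) (P : Pre G f) {φ : E n → ℝ}
    (hφ : Continuous φ) (hs : HasCompactSupport φ) :
    Tendsto (fun k => ∫ x, φ x * f k x) P.l (𝓝 (∫ x, φ x * P.g x)) := by
  have h := P.g_lim (fun x => φ x / dens G x)
    (hφ.div (Core.Mini.continuous_dens hG) fun x => (hG.dens_pos x).ne')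
    (hs.mono fun x hx => by
      simp only [Function.mem_support] at hx ⊢
      exact fun h => hx (by simp [h]))
  have e : ∀ u : E n → ℝ, ∫ x, φ x / dens G x * u x ∂vol G = ∫ x, φ x * u x := fun u => by
    rw [Core.Field.integral_vol hG]
    refine integral_congr_ae (Eventually.of_forall fun x => ?_)
    have := (hG.dens_pos x).ne'
    field_simp
  rw [e] at h
  exact h.congr fun k => e (f k)

/-- The derivative is bounded by the gradient on compact sets. -/
theorem exists_fderiv_bound (hG : IsMetric G) {K : Set (E n)} (hK : IsCompact K) :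
    ∃ C : ℝ, 0 ≤ C ∧ ∀ f : E n → ℝ, ∀ y ∈ K, ‖fderiv ℝ f y‖ ≤ C * gnorm G y (grad G f y) := by
  have hc : Continuous fun y => ‖G y‖ := hG.smooth.continuous.norm
  obtain ⟨M, hM⟩ := (hK.image hc).bddAbove
  replace hM : ∀ y ∈ K, ‖G y‖ ≤ |M| := fun y hy =>
    (hM ⟨y, hy, rfl⟩).trans (le_abs_self M)
  refine ⟨Real.sqrt |M|, Real.sqrt_nonneg _, fun f y hy => ?_⟩
  refine ContinuousLinearMap.opNorm_le_bound _
    (mul_nonneg (Real.sqrt_nonneg _) (Real.sqrt_nonneg _)) fun w => ?_
  rw [← hG.G_grad, Real.norm_eq_abs]
  refine (hG.cauchy y _ w).trans ?_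
  rw [mul_comm (Real.sqrt |M|), mul_assoc]
  refine mul_le_mul_of_nonneg_left ?_ (Real.sqrt_nonneg _)
  rw [gnorm, ← Real.sqrt_sq (norm_nonneg w), ← Real.sqrt_mul (abs_nonneg M)]
  refine Real.sqrt_le_sqrt ((Real.le_norm_self _).trans (((G y).le_opNorm₂ w w).trans ?_))
  rw [mul_assoc, sq]
  exact mul_le_mul_of_nonneg_right (hM y hy) (by positivity)

/-- The integrals of `g` and `1 - g` over a small ball. -/
theorem Pre.ball_pair_le {f : ℕ → E n → ℝ} (hG : IsMetric G) (hf : ∀ k, Cls (f k)) (P : Pre G f)
    (hmid : Tendsto (fun k => midv G (f k)) atTop (𝓝 0)) (x₀ : E n) :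
    ∃ C : ℝ, 0 ≤ C ∧ ∀ r : ℝ, 0 < r → r ≤ 1 →
      (∫ x in closedBall x₀ r, P.g x) * (∫ x in closedBall x₀ r, (1 - P.g x)) ≤
        C * r * volume.real (closedBall x₀ r) *
          (P.μ.map Prod.fst).real (closedBall x₀ (3 * r)) := by
  obtain ⟨C₁, hC₁, hC₁b⟩ := exists_fderiv_bound hG (isCompact_closedBall x₀ 3)
  obtain ⟨c, hc, hcb⟩ := (isCompact_closedBall x₀ 3).exists_forall_le'
    (Core.Mini.continuous_dens hG).continuousOn (a := 0) fun y _ => hG.dens_pos y
  refine ⟨4 * 4 ^ n * (C₁ / c), by positivity, fun r hr hr1 => ?_⟩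
  obtain ⟨φ, hφ1, hφs, hφt, hφ01⟩ := exists_continuousMap_one_of_isCompact_subset_isOpen
    (isCompact_closedBall x₀ r) isOpen_ball
    (closedBall_subset_ball (by linarith : r < 2 * r))
  obtain ⟨χ, hχ1, hχs, hχt, hχ01⟩ := exists_continuousMap_one_of_isCompact_subset_isOpen
    (isCompact_closedBall x₀ (2 * r)) isOpen_ball
    (closedBall_subset_ball (by linarith : 2 * r < 3 * r))
  set B := closedBall x₀ (2 * r)
  have hB : IsCompact B := isCompact_closedBall _ _
  have hBK : B ⊆ closedBall x₀ 3 := closedBall_subset_closedBall (by linarith)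
  have hφ0 : ∀ x ∉ B, φ x = 0 := fun x hx =>
    image_eq_zero_of_notMem_tsupport fun h => hx (ball_subset_closedBall (hφt h))
  have hφi : ∀ {u : E n → ℝ}, Measurable u → (∀ x, u x ∈ Icc (0 : ℝ) 1) →
      Integrable fun x => φ x * u x := fun hu hu1 =>
    (φ.continuous.integrable_of_hasCompactSupport hφs).mul_bdd (c := 1) hu.aestronglyMeasurable
      (Eventually.of_forall fun x => by
        rw [Real.norm_eq_abs, abs_of_nonneg (hu1 x).1]; exact (hu1 x).2)
  have hg' : ∀ x, 1 - P.g x ∈ Icc (0 : ℝ) 1 := fun x =>
    ⟨by linarith [(P.g_mem x).2], by linarith [(P.g_mem x).1]⟩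
  -- lower bounds
  have hlow : ∀ {u : E n → ℝ}, Measurable u → (∀ x, u x ∈ Icc (0 : ℝ) 1) →
      ∫ x in closedBall x₀ r, u x ≤ ∫ x, φ x * u x := fun {u} hu hu1 => by
    calc ∫ x in closedBall x₀ r, u x = ∫ x in closedBall x₀ r, φ x * u x :=
          setIntegral_congr_fun measurableSet_closedBall fun x hx => by simp [hφ1 hx]
      _ ≤ _ := setIntegral_le_integral (hφi hu hu1)
          (Eventually.of_forall fun x => mul_nonneg (hφ01 x).1 (hu1 x).1)
  have hup : ∀ {u : E n → ℝ}, Measurable u → (∀ x, u x ∈ Icc (0 : ℝ) 1) →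
      ∫ x, φ x * u x ≤ ∫ x in B, u x := fun {u} hu hu1 => by
    rw [← setIntegral_eq_integral_of_forall_compl_eq_zero
      (s := B) (f := fun x => φ x * u x) fun x hx => by simp [hφ0 x hx]]
    exact setIntegral_mono_on (hφi hu hu1).integrableOn (integrableOn_of_mem hu hu1 hB)
      measurableSet_closedBall fun x _ => mul_le_of_le_one_left (hu1 x).1 (hφ01 x).2
  -- the bound at finite stages
  have hstep : ∀ k, (∫ x, φ x * f k x) * (∫ x, φ x * (1 - f k x)) ≤
      volume.real B * (c⁻¹ * midv G (f k)) +
        4 * r * volume.real (closedBall (0 : E n) (4 * r)) *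
          (C₁ / c * ∫ x, χ x ∂surf G (f k)) := by
    intro k
    obtain ⟨hk1, hks, hk01⟩ := hf k
    have hk' : ∀ x, 1 - f k x ∈ Icc (0 : ℝ) 1 := fun x =>
      ⟨by linarith [(hk01 x).2], by linarith [(hk01 x).1]⟩
    have hmf : Measurable fun x => 1 - f k x := measurable_const.sub hk1.continuous.measurable
    refine (mul_le_mul (hup hk1.continuous.measurable hk01) (hup hmf hk')
      (integral_nonneg fun x => mul_nonneg (hφ01 x).1 (hk' x).1)
      (integral_nonneg fun x => (hk01 x).1)).trans ?_
    refine (pair_le (μ := (volume : Measure (E n))) hk1 hk01 x₀ (by positivity)).trans ?_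
    have e4 : (2 : ℝ) * (2 * r) = 4 * r := by ring
    rw [e4]
    refine add_le_add (mul_le_mul_of_nonneg_left ?_ measureReal_nonneg)
      (mul_le_mul_of_nonneg_left ?_ (by positivity))
    · have hcont : Continuous fun x => dens G x * (f k x * (1 - f k x)) :=
        (Core.Mini.continuous_dens hG).mul
          (hk1.continuous.mul (continuous_const.sub hk1.continuous))
      rw [midv, Core.Field.integral_vol hG, ← integral_const_mul]
      calc ∫ x in B, f k x * (1 - f k x)
          ≤ ∫ x in B, c⁻¹ * (dens G x * (f k x * (1 - f k x))) := by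
            refine setIntegral_mono_on
              ((hk1.continuous.mul (continuous_const.sub hk1.continuous)).continuousOn
                |>.integrableOn_compact hB)
              ((hcont.const_mul _).continuousOn.integrableOn_compact hB)
              measurableSet_closedBall fun x hx => ?_
            rw [inv_mul_eq_div, le_div_iff₀ hc, mul_comm]
            exact mul_le_mul_of_nonneg_right (hcb x (hBK hx)) (mul_nonneg (hk01 x).1 (hk' x).1)
        _ ≤ _ := setIntegral_le_integral
            ((hcont.const_mul _).integrable_of_hasCompactSupport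
              (hks.mul_right.mul_left.mul_left))
            (Eventually.of_forall fun x => mul_nonneg (inv_nonneg.2 hc.le)
              (mul_nonneg (hG.dens_pos x).le (mul_nonneg (hk01 x).1 (hk' x).1)))
    · have hcg := Core.Field.continuous_gnorm_grad hG hk1
      have hcont : Continuous fun x => dens G x * (gnorm G x (grad G (f k) x) * χ x) :=
        (Core.Mini.continuous_dens hG).mul (hcg.mul χ.continuous)
      have e : ∫ x, χ x ∂surf G (f k) = ∫ x, dens G x * (gnorm G x (grad G (f k) x) * χ x) := by
        rw [surf, integral_withDensity_eq_integral_toReal_smul hcg.measurable.ennreal_ofReal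
          (Eventually.of_forall fun x => ENNReal.ofReal_lt_top), Core.Field.integral_vol hG]
        refine integral_congr_ae (Eventually.of_forall fun x => ?_)
        simp [ENNReal.toReal_ofReal (gnorm_nonneg G x _)]
      rw [e, ← integral_const_mul]
      calc ∫ x in B, ‖fderiv ℝ (f k) x‖
          ≤ ∫ x in B, C₁ / c * (dens G x * (gnorm G x (grad G (f k) x) * χ x)) := by
            refine setIntegral_mono_on
              ((hk1.continuous_fderiv one_ne_zero).norm.continuousOn.integrableOn_compact hB)
              ((hcont.const_mul _).continuousOn.integrableOn_compact hB)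
              measurableSet_closedBall fun x hx => (hC₁b (f k) x (hBK hx)).trans ?_
            rw [hχ1 hx, Pi.one_apply, mul_one, div_mul_eq_mul_div, le_div_iff₀ hc, mul_assoc,
              mul_comm (dens G x)]
            exact mul_le_mul_of_nonneg_left
              (mul_le_mul_of_nonneg_left (hcb x (hBK hx)) (gnorm_nonneg G x _)) hC₁
        _ ≤ _ := setIntegral_le_integral
            ((hcont.const_mul _).integrable_of_hasCompactSupport (HasCompactSupport.mul_left hχs).mul_left.mul_left)
            (Eventually.of_forall fun x => mul_nonneg (by positivity) (mul_nonneg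
              (hG.dens_pos x).le (mul_nonneg (gnorm_nonneg G x _) (hχ01 x).1)))
  -- limit
  have hmid' := hmid.mono_left P.le
  have hsurf := Pre.mu_lim_base hG hf P (F := fun p => χ p.1)
    (χ.continuous.comp continuous_fst) hχs fun p hp => image_eq_zero_of_notMem_tsupport hp
  have hint : Integrable φ := φ.continuous.integrable_of_hasCompactSupport hφs
  have hlim1 := Pre.lebesgue_lim hG P φ.continuous hφs
  have hsub : ∀ {u : E n → ℝ}, Measurable u → (∀ x, u x ∈ Icc (0 : ℝ) 1) →
      ∫ x, φ x * (1 - u x) = (∫ x, φ x) - ∫ x, φ x * u x := fun hu hu1 => by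
    simp only [mul_sub, mul_one]
    exact integral_sub hint (hφi hu hu1)
  have hlim2 : Tendsto (fun k => ∫ x, φ x * (1 - f k x)) P.l
      (𝓝 (∫ x, φ x * (1 - P.g x))) := by
    rw [hsub P.g_meas P.g_mem]
    exact ((tendsto_const_nhds (x := ∫ x, φ x)).sub hlim1).congr fun k =>
      (hsub (hf k).c1.continuous.measurable (hf k).mem).symm
  have hmain := le_of_tendsto_of_tendsto' (hlim1.mul hlim2)
    (((hmid'.const_mul _).const_mul _).add ((hsurf.const_mul _).const_mul _)) hstep
  refine (mul_le_mul (hlow P.g_meas P.g_mem) (hlow (measurable_const.sub P.g_meas) hg')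
    (setIntegral_nonneg measurableSet_closedBall fun x _ => (hg' x).1)
    (integral_nonneg fun x => mul_nonneg (hφ01 x).1 (P.g_mem x).1)).trans (hmain.trans ?_)
  have hπ : ∫ p, χ p.1 ∂P.μ ≤ (P.μ.map Prod.fst).real (closedBall x₀ (3 * r)) := by
    rw [← integral_map measurable_fst.aemeasurable χ.continuous.aestronglyMeasurable,
      ← integral_indicator_one measurableSet_closedBall]
    refine integral_mono (χ.continuous.integrable_of_hasCompactSupport hχs)
      ((integrable_const (1 : ℝ)).indicator measurableSet_closedBall) fun x => ?_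
    by_cases hx : x ∈ closedBall x₀ (3 * r)
    · rw [indicator_of_mem hx]; exact (hχ01 x).2
    · rw [indicator_of_notMem hx,
        image_eq_zero_of_notMem_tsupport fun h => hx (ball_subset_closedBall (hχt h))]
  have ev : volume.real (closedBall (0 : E n) (4 * r)) =
      4 ^ n * volume.real (closedBall x₀ r) := by
    rw [Measure.addHaar_real_closedBall _ _ (by positivity),
      Measure.addHaar_real_closedBall _ _ hr.le, finrank_euclideanSpace_fin, mul_pow, mul_assoc]
  rw [mul_zero, mul_zero, zero_add, ev]
  calc 4 * r * (4 ^ n * volume.real (closedBall x₀ r)) * (C₁ / c * ∫ p, χ p.1 ∂P.μ)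
      = 4 * 4 ^ n * (C₁ / c) * r * volume.real (closedBall x₀ r) * ∫ p, χ p.1 ∂P.μ := by ring
    _ ≤ _ := mul_le_mul_of_nonneg_left hπ (by positivity)

/-- The limit takes the values zero and one. -/
theorem zeroOneStmt : ZeroOneStmt := by
  intro n G _ hG f hf hmid P
  set π := P.μ.map Prod.fst
  have hloc : LocallyIntegrable P.g (volume : Measure (E n)) :=
    (locallyIntegrable_const (1 : ℝ)).mono P.g_meas.aestronglyMeasurable
      (Eventually.of_forall fun x => by
        rw [norm_one, Real.norm_eq_abs, abs_of_nonneg (P.g_mem x).1]; exact (P.g_mem x).2)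
  filter_upwards [(Besicovitch.vitaliFamily (volume : Measure (E n))).ae_tendsto_average hloc,
    Besicovitch.ae_tendsto_rnDeriv π (volume : Measure (E n)),
    Measure.rnDeriv_lt_top π (volume : Measure (E n))] with x hx hxπ hfin
  obtain ⟨C, -, hCb⟩ := Pre.ball_pair_le hG hf P hmid x
  have havg := hx.comp (Besicovitch.tendsto_filterAt (volume : Measure (E n)) x)
  have h3 : Tendsto (fun r : ℝ => 3 * r) (𝓝[>] 0) (𝓝[>] 0) := by
    refine tendsto_nhdsWithin_iff.2 ⟨?_, ?_⟩
    · simpa using ((continuous_const_mul (3 : ℝ)).tendsto (0 : ℝ)).mono_left nhdsWithin_le_nhds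
    · filter_upwards [self_mem_nhdsWithin] with r hr
      exact mul_pos (three_pos (α := ℝ)) hr
  have hratio := ((ENNReal.tendsto_toReal hfin.ne).comp hxπ).comp h3
  have hrhs : Tendsto (fun r : ℝ => C * 3 ^ n * r *
      (π.real (closedBall x (3 * r)) / volume.real (closedBall x (3 * r)))) (𝓝[>] 0) (𝓝 0) := by
    have h0 : Tendsto (fun r : ℝ => C * 3 ^ n * r) (𝓝[>] 0) (𝓝 0) := by
      simpa using ((continuous_const_mul (C * 3 ^ n)).tendsto (0 : ℝ)).mono_left nhdsWithin_le_nhds
    have := h0.mul hratio
    rw [zero_mul] at this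
    refine this.congr fun r => ?_
    simp [measureReal_def, ENNReal.toReal_div]
  have hle : P.g x * (1 - P.g x) ≤ 0 := by
    refine le_of_tendsto_of_tendsto (havg.mul (havg.const_sub 1)) hrhs ?_
    filter_upwards [self_mem_nhdsWithin, Ioc_mem_nhdsGT one_pos] with r hr hr1
    simp only [Function.comp_apply, setAverage_eq, smul_eq_mul]
    set V := volume.real (closedBall x r) with hV
    have hVp : 0 < V := ENNReal.toReal_pos (measure_closedBall_pos volume x hr).ne'
      measure_closedBall_lt_top.ne
    have hV3 : volume.real (closedBall x (3 * r)) = 3 ^ n * V := by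
      rw [hV, Measure.addHaar_real_closedBall _ _ (mul_pos three_pos hr).le,
        Measure.addHaar_real_closedBall _ _ hr.le, finrank_euclideanSpace_fin, mul_pow, mul_assoc]
    have hsub : ∫ y in closedBall x r, (1 - P.g y) = V - ∫ y in closedBall x r, P.g y := by
      rw [integral_sub (integrableOn_const (C := (1 : ℝ)) measure_closedBall_lt_top.ne)
        (integrableOn_of_mem P.g_meas P.g_mem (isCompact_closedBall x r)), setIntegral_const,
        smul_eq_mul, mul_one]
    have := hCb r hr hr1.2
    rw [hsub] at this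
    rw [hV3]
    calc V⁻¹ * (∫ y in closedBall x r, P.g y) * (1 - V⁻¹ * ∫ y in closedBall x r, P.g y)
        = (∫ y in closedBall x r, P.g y) * (V - ∫ y in closedBall x r, P.g y) / (V * V) := by
          field_simp
      _ ≤ C * r * V * π.real (closedBall x (3 * r)) / (V * V) :=
          div_le_div_of_nonneg_right this (by positivity)
      _ = C * 3 ^ n * r * (π.real (closedBall x (3 * r)) / (3 ^ n * V)) := by
          field_simp
  have h0 := P.g_mem x
  rcases (mul_eq_zero.1 (le_antisymm hle (mul_nonneg h0.1 (sub_nonneg.2 h0.2)))) with h | h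
  · exact Or.inl h
  · exact Or.inr (sub_eq_zero.1 h).symm

end

end Vale.Agent.P219.CH.Full.Limit
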